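import Vale.Agent.P128.TA3.Main

/-! P128 B8/Pt (TASK, about 80 lines). Helper lemma names start with pt_.
pt_ne: NC1 for y = x. pt_one: suppose no s in (T, R) has encard 1. N s = encard (K ∩ sphere x s) is at least 1 on
(0, T] (pt_ne) and at least 2 on (T, R). eilenberg_sphere with I = Ioo 0 R (split as Ioc 0 T ∪ Ioo T R,
lintegral_union, setLIntegral_mono', setLIntegral_const, Real.volume_Ioc): T + 2 (R - T) ≤ 1.5 R, false.
pt_conn: encard = 1 gives K ∩ sphere x s = {p}; by NC1 the component (connectedComponentIn) of every y contains p;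
isPreconnected_of_forall p. -/

namespace Vale.Agent.P128

open MeasureTheory Set Metric Filter Topology
open scoped ENNReal

theorem pt_ne {K : Set ℂ} (hK : IsClosed K) (hN : NoPiece K) {x : ℂ} (hx : x ∈ K) {s : ℝ}
    (hs : 0 ≤ s) : (K ∩ sphere x s).Nonempty := by
  obtain ⟨p, h1, h2⟩ := NC1 hK hN (y := x) ⟨hx, mem_closedBall_self hs⟩
  exact ⟨p, (connectedComponentIn_subset _ _ h1).1, h2⟩

theorem pt_one {K : Set ℂ} (hK : IsClosed K) (hN : NoPiece K) {x : ℂ} (hx : x ∈ K) {T R : ℝ}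
    (hT : 0 < T) (hR : 2 * T < R)
    (hl : μH[1] (K ∩ closedBall x R) ≤ ENNReal.ofReal (1.5 * R)) :
    ∃ s, T < s ∧ (K ∩ sphere x s).encard = 1 := by
  by_contra hc
  have a1 : ∀ s, 0 ≤ s → (1 : ℕ∞) ≤ (K ∩ sphere x s).encard := fun s hs =>
    one_le_encard_iff_nonempty.2 (pt_ne hK hN hx hs)
  have a2 : ∀ s, T < s → (2 : ℕ∞) ≤ (K ∩ sphere x s).encard := fun s hs =>
    Order.add_one_le_of_lt (lt_of_le_of_ne (a1 s (hT.trans hs).le) fun h => hc ⟨s, hs, h.symm⟩)
  have b1 : ENNReal.ofReal T ≤ ∫⁻ s in Ioc 0 T, ((K ∩ sphere x s).encard : ℝ≥0∞) := by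
    refine le_trans (le_of_eq ?_) (setLIntegral_mono' (f := fun _ => 1) measurableSet_Ioc
      fun s hs => by simpa using ENat.toENNReal_le.2 (a1 s hs.1.le))
    rw [setLIntegral_const, Real.volume_Ioc, sub_zero, one_mul]
  have b2 : ENNReal.ofReal (2 * (R - T)) ≤ ∫⁻ s in Ioo T R, ((K ∩ sphere x s).encard : ℝ≥0∞) := by
    refine le_trans (le_of_eq ?_) (setLIntegral_mono' (f := fun _ => 2) measurableSet_Ioo
      fun s hs => by simpa using ENat.toENNReal_le.2 (a2 s hs.1))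
    rw [setLIntegral_const, Real.volume_Ioo, ENNReal.ofReal_mul zero_le_two, ENNReal.ofReal_ofNat]
  have b3 := (eilenberg_sphere hK x).2 (Ioc 0 T ∪ Ioo T R) (measurableSet_Ioc.union measurableSet_Ioo)
  rw [lintegral_union measurableSet_Ioo
    (Set.disjoint_left.2 fun s h1 h2 => h1.2.not_gt h2.1)] at b3
  have b4 : K ∩ {z | dist z x ∈ Ioc 0 T ∪ Ioo T R} ⊆ K ∩ closedBall x R := fun z hz =>
    ⟨hz.1, mem_closedBall.2 (hz.2.elim (fun h => h.2.trans (by linarith)) fun h => h.2.le)⟩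
  have b5 := (add_le_add b1 b2).trans (b3.trans ((measure_mono b4).trans hl))
  rw [← ENNReal.ofReal_add hT.le (by linarith), ENNReal.ofReal_le_ofReal_iff (by linarith)] at b5
  linarith

theorem pt_conn {K : Set ℂ} (hK : IsClosed K) (hN : NoPiece K) {x : ℂ} {s : ℝ}
    (h1 : (K ∩ sphere x s).encard = 1) : IsPreconnected (K ∩ closedBall x s) := by
  obtain ⟨p, hp⟩ := encard_eq_one.1 h1
  refine isPreconnected_of_forall p fun y hy => ?_
  obtain ⟨q, h2, h3⟩ := NC1 hK hN hy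
  have h4 : q ∈ K ∩ sphere x s := ⟨(connectedComponentIn_subset _ _ h2).1, h3⟩
  rw [hp, mem_singleton_iff] at h4
  exact ⟨_, connectedComponentIn_subset _ _, h4 ▸ h2, mem_connectedComponentIn hy,
    isPreconnected_connectedComponentIn⟩

end Vale.Agent.P128
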