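import Vale.Agent.P128.B8.One
import Vale.Agent.P128.B8.Pt
import Vale.Agent.P128.B7a.Main

/-! P128 B8/Blow (TASK, about 130 lines). Helper lemma names start with blow_.
blow_high: LOWD (constant δ₁ for c = h.cpos) applied to (rescU u x T', rescS K x T') with T' = max T 1 (GM.rescale): if
D u K x t ≤ δ₁ t for all t ≥ T' then (resc_real) the rescaled gradient vanishes off the rescaled set, and the last item of
resc_real (w = x + T' * y, rsd_surj) gives fderiv u = 0 off K.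
blow_pts: v from conj_exists is bounded on K by B (finite image). Choose ρ n ≥ n + 1 with δ ρ n < D u K x (ρ n).
lim_ZF (B ≤ η √(ρ n) eventually) gives (w, L), ZF, δ ≤ D w L 0 1. one_top for (w, L) with η = 1/4: r > 0 with
lenc L 0 r ≤ 1.25 r; the last item of lim_ZF with η = r / 4: lenc K x (ρ r) ≤ 1.5 ρ r eventually, and
ρ r > 2 max T 1 eventually; pt_one (GM.noPiece, upper_real turns μH into ofReal lenc).
blowdown': for p, q in K pick s > max (dist p x) (dist q x) with one point; pt_conn and the second item of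
conj_exists give v p = v x; Conj.sub_const gives ZF. one_top at x (t₀ from blow_high). For another centre y, with
a = dist y x: D x (s - a) ≤ D y s ≤ D x (s + a) for s > a (AM0.mono_real, ball_subset_ball'), and
D x (s ± a) / s = (D x (s ± a) / (s ± a)) * ((s ± a) / s) tends to 1; tendsto_of_tendsto_of_tendsto_of_le_of_le'. -/

namespace Vale.Agent.P128

open MeasureTheory Set Metric Filter Topology
open scoped ENNReal

theorem blow_high {c : ℝ} {u : ℂ → ℝ} {K : Set ℂ} (h : GM c u K) {x : ℂ} (hx : x ∈ K)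
    (hD : ¬ ∀ z ∉ K, fderiv ℝ u z = 0) :
    ∃ δ : ℝ, 0 < δ ∧ ∀ T : ℝ, ∃ t, T ≤ t ∧ 0 < t ∧ δ * t < D u K x t := by
  obtain ⟨δ, δ0, hL⟩ := LOWD h.cpos
  refine ⟨δ, δ0, fun T => ?_⟩
  by_contra hc
  have T0 : 0 < max T 1 := zero_lt_one.trans_le (le_max_right _ _)
  refine hD fun z hz => ?_
  obtain ⟨y, rfl⟩ := rsd_surj x T0 z
  have a := hL _ _ (h.rescale x T0) (by simpa [rsd_mem] using hx) (fun t ht => by
    rw [(resc_real u K x T0 0 t).1, mul_zero, add_zero, div_le_iff₀ T0]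
    have t0 : 0 < max T 1 * t := mul_pos T0 (zero_lt_one.trans_le ht)
    refine (not_lt.1 fun hl => hc ⟨max T 1 * t, ?_, t0, hl⟩).trans_eq (by ring)
    exact (le_max_left _ _).trans (le_mul_of_one_le_right T0.le ht)) y hz
  rw [(resc_real u K x T0 y 1).2.2.2.2.2.2.2, smul_eq_zero] at a
  exact a.resolve_left (Real.sqrt_pos.2 T0).ne'

theorem blow_pts {c : ℝ} {u : ℂ → ℝ} {K : Set ℂ} (h : GM c u K) {x : ℂ} (hx : x ∈ K)
    (hD : ¬ ∀ z ∉ K, fderiv ℝ u z = 0) (T : ℝ) :
    ∃ s, T < s ∧ (K ∩ sphere x s).encard = 1 := by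
  obtain ⟨δ, δ0, hδ⟩ := blow_high h hx hD
  obtain ⟨v, hv, -, hf⟩ := conj_exists h
  obtain ⟨B, hB⟩ := (hf.image fun a => |a|).bddAbove
  choose ρ ρ1 ρ0 ρD using fun n : ℕ => hδ n
  have hρ : Tendsto ρ atTop atTop := tendsto_atTop_mono ρ1 tendsto_natCast_atTop_atTop
  obtain ⟨φ, hφ, w, L, hw, h0, hz, hen, hl⟩ := lim_ZF h hv hx ρ0 fun η η0 => by
    filter_upwards [((Real.tendsto_sqrt_atTop.comp hρ).const_mul_atTop η0).eventually_ge_atTop B]
      with n hn z hz
    exact (hB ⟨v z, ⟨z, hz, rfl⟩, rfl⟩).trans hn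
  have d1 : δ ≤ D w L 0 1 := ge_of_tendsto' (hen 1 one_pos) fun n => by
    rw [le_div_iff₀ (ρ0 _), mul_one]
    exact (ρD _).le
  obtain ⟨r, -, r0, hr⟩ := (one_top hw hz h0 one_pos (δ0.trans_le d1)).2 (1 / 4) 0 (by norm_num)
  obtain ⟨n, n1, n2⟩ := ((hl r (r / 4) r0 (by positivity)).and
    (((hρ.comp hφ.tendsto_atTop).atTop_mul_const r0).eventually_gt_atTop (2 * max T 1))).exists
  have R0 : 0 < ρ (φ n) * r := mul_pos (ρ0 _) r0
  obtain ⟨s, s1, s2⟩ := pt_one (R := ρ (φ n) * r) h.closed h.noPiece hx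
    (zero_lt_one.trans_le (le_max_right T 1)) n2
    (by
      rw [(h.toAM0.upper_real R0 (subset_univ _)).2.2.1]
      refine ENNReal.ofReal_le_ofReal (n1.trans ?_)
      nlinarith [ρ0 (φ n)])
  exact ⟨s, (le_max_left _ _).trans_lt s1, s2⟩

theorem blowdown' {c : ℝ} {u : ℂ → ℝ} {K : Set ℂ} (h : GM c u K) {x : ℂ} (hx : x ∈ K)
    (hD : ¬ ∀ z ∉ K, fderiv ℝ u z = 0) :
    ZF u K ∧ (∀ y, Tendsto (fun s => D u K y s / s) atTop (𝓝 1)) ∧
      ∀ T : ℝ, ∃ s, T < s ∧ (K ∩ sphere x s).encard = 1 := by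
  have hz : ZF u K := by
    obtain ⟨v, hv, hc, -⟩ := conj_exists h
    refine ⟨_, hv.sub_const (v x), fun z hz => sub_eq_zero.2 ?_⟩
    obtain ⟨s, s1, s2⟩ := blow_pts h hx hD (dist z x)
    exact hc _ inter_subset_left (pt_conn h.closed h.noPiece s2) z ⟨hz, mem_closedBall.2 s1.le⟩ x
      ⟨hx, mem_closedBall_self (dist_nonneg.trans s1.le)⟩
  obtain ⟨δ, δ0, hδ⟩ := blow_high h hx hD
  obtain ⟨t, -, t0, ht⟩ := hδ 0
  have h1 := (one_top h hz hx t0 ((mul_pos δ0 t0).trans ht)).1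
  refine ⟨hz, fun y => ?_, blow_pts h hx hD⟩
  have key : ∀ a : ℝ, Tendsto (fun s => D u K x (s + a) / s) atTop (𝓝 1) := fun a => by
    have h2 := h1.comp (tendsto_atTop_add_const_right atTop a tendsto_id)
    have h3 : Tendsto (fun s : ℝ => 1 + a / s) atTop (𝓝 (1 + 0)) :=
      tendsto_const_nhds.add (tendsto_const_nhds.div_atTop tendsto_id)
    have h4 := h2.mul h3
    rw [add_zero, one_mul] at h4
    refine h4.congr' ?_
    filter_upwards [eventually_gt_atTop 0, eventually_gt_atTop (-a)] with s s0 s1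
    have : s + a ≠ 0 := by linarith
    simp only [Function.comp_apply, id]
    field_simp
  refine tendsto_of_tendsto_of_tendsto_of_le_of_le' (key (-dist x y)) (key (dist y x)) ?_ ?_
  · filter_upwards [eventually_gt_atTop 0] with s s0
    exact div_le_div_of_nonneg_right ((h.toAM0.mono_real s0 (subset_univ _)).1 x _
      (ball_subset_ball' (by linarith))).1 s0.le
  · filter_upwards [eventually_gt_atTop 0] with s s0
    exact div_le_div_of_nonneg_right ((h.toAM0.mono_real (add_pos_of_pos_of_nonneg s0 dist_nonneg)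
      (subset_univ _)).1 y _ (ball_subset_ball' le_rfl)).1 s0.le

end Vale.Agent.P128
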