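import Vale.Agent.P128.B8.Kap
import Vale.Agent.P128.B8.Pt
import Vale.Agent.P128.B7c.Main

/-! P128 B8/Cyc. Helper lemma names start with cyc_.
cyc_pocket: suppose D / r tends to 0. Take ηJ, δJ, j from Jump (c = h.cpos), e' from Graph.flat. Choose r > 0 small
(Eventually.exists in 𝓝[>] 0, composed with r ↦ 2 r): r ≤ h₀, r ≤ t, K ∩ closedBall x (2r) ⊆ strip x e' ((ηJ/2) (2r)),
D u K x (2r) ≤ δJ r. kap_main gives κ, R₀. Put lam = -(u up - u dn) / (κ up - κ dn), u' = u + lam κ; AM.shift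
(univ \ K = Kᶜ, compl_eq_univ_diff) keeps GM and the gradient off K. Jump for u' with R = max (2r) R₀: the Dir hypothesis
holds since ball \ strip (2 ηJ r) ⊆ ball \ K (setLIntegral_congr_fun or lintegral_mono_set, upper_real); the jump
alternative reads j √r ≤ 0, false; SepUD fails with κ' = κ₀ + μ κ, μ = -(κ₀ up - κ₀ dn) / (κ up - κ dn).
no_cycle': suppose D / r tends to 0 at all points of K. C = K ∩ closedBall x s is compact, preconnected (pt_conn,
GM.noPiece); K ∩ sphere x s = {p}, p ≠ x. noncut gives y ∈ C, y ≠ p, so dist y x < s. LOWREG (ε = 0, Ω = univ) at y with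
r small (D ≤ δ₀ r, r < s - dist y x). Graph case: cyc_pocket with t = r. Star case: y' = z 0 (ρ/2) ∈ K is non-cut
(join_star; K ∩ closedBall y ρ ⊆ C), LOWREG at y': the second case contradicts Star.flat_pt
(len ≤ toReal of μH of the closed ball ≤ 2.4 t < 2.5 t), the first is excluded by cyc_pocket with t = ρ/2. -/

namespace Vale.Agent.P128

open MeasureTheory Set Metric Filter Topology
open scoped ENNReal

theorem cyc_pocket {c : ℝ} {u : ℂ → ℝ} {K C : Set ℂ} (h : GM c u K) {x e : ℂ} (hx : x ∈ K)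
    {h₀ A α ρ t : ℝ} {φ φ' : ℝ → ℝ} (hG : Graph K x e h₀ A α ρ φ φ') (hh : 0 < h₀)
    (hC : IsCompact C) (hCK : C ⊆ K) (ht : 0 < t) (hl : K ∩ closedBall x t ⊆ C)
    (hn : IsPreconnected (C \ {x})) :
    ¬ Tendsto (fun r => D u K x r / r) (𝓝[>] 0) (𝓝 0) := by
  intro hT
  obtain ⟨ηJ, δJ, j, hη, -, hδ, hj, hJ⟩ := Jump h.cpos
  obtain ⟨e', he', hee, hf⟩ := hG.flat hh
  have h2 : Tendsto (fun r : ℝ => 2 * r) (𝓝[>] 0) (𝓝[>] 0) :=
    tendsto_nhdsWithin_iff.2 ⟨((continuous_const.mul continuous_id).tendsto' 0 0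
      (mul_zero 2)).mono_left nhdsWithin_le_nhds,
      eventually_mem_nhdsWithin.mono fun r hr => mem_Ioi.2 (mul_pos two_pos (mem_Ioi.1 hr))⟩
  obtain ⟨r, ⟨h3, h4⟩, h5⟩ := (((h2.eventually (hf (ηJ / 2) (half_pos hη))).and
    (h2.eventually (hT.eventually (gt_mem_nhds (half_pos hδ))))).and
      (Ioc_mem_nhdsGT (lt_min hh ht))).exists
  have hr : 0 < r := h5.1
  obtain ⟨κ, hκ, hne, R₀, hR₀⟩ := kap_main h.closed hG hC hCK hr (h5.2.trans (min_le_left _ _))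
    ((inter_subset_inter_right _
      (closedBall_subset_closedBall (h5.2.trans (min_le_right _ _)))).trans hl) hn he' hee
  rw [compl_eq_univ_sdiff] at hκ
  have hd := sub_ne_zero.2 hne
  have key : ∀ v : ℂ → ℝ, ∃ μ : ℝ, v (upP x e' r) + μ * κ (upP x e' r) =
      v (dnP x e' r) + μ * κ (dnP x e' r) := fun v =>
    ⟨-(v (upP x e' r) - v (dnP x e' r)) / (κ (upP x e' r) - κ (dnP x e' r)), by
      field_simp
      ring⟩
  obtain ⟨lam, hlam⟩ := key u
  obtain ⟨h6, h7⟩ := AM.shift h trivial (κ := fun z => lam * κ z)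
    fun z hz => (hκ z hz).mono fun w hw => congrArg (lam * ·) hw
  rw [show ηJ / 2 * (2 * r) = ηJ * r by ring] at h3
  have hsub : ball x (2 * r) \ strip x e' (2 * ηJ * r) ⊆ ball x (2 * r) \ K := fun z hz =>
    ⟨hz.1, fun hK => hz.2 (le_trans (h3 ⟨hK, ball_subset_closedBall hz.1⟩)
      (show ηJ * r ≤ 2 * ηJ * r by nlinarith [mul_pos hη hr]))⟩
  have hE : Dir (fun z => u z + lam * κ z) (ball x (2 * r) \ strip x e' (2 * ηJ * r)) ≤
      ENNReal.ofReal (δJ * r) := by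
    have h8 : Dir (fun z => u z + lam * κ z) (ball x (2 * r) \ K) = Dir u (ball x (2 * r) \ K) :=
      setLIntegral_congr_fun (measurableSet_ball.diff h.closed.measurableSet)
        fun z hz => by simp only [h7 z ⟨trivial, hz.2⟩]
    refine (lintegral_mono_set hsub).trans (h8.trans_le ?_)
    rw [(h.toAM0.upper_real (mul_pos two_pos hr) (subset_univ _)).2.1]
    rw [div_lt_iff₀ (mul_pos two_pos hr)] at h4
    exact ENNReal.ofReal_le_ofReal (by linarith)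
  rcases hJ univ 0 True _ K h6 x e' r (max (2 * r) R₀) hx he' hr (le_max_left _ _) (subset_univ _)
    h3 hE (by rw [zero_mul, zero_mul]; positivity) with h8 | ⟨-, κ₀, h8, h9⟩
  · simp only [hlam, sub_self, abs_zero] at h8
    exact absurd h8 (not_le.2 (by positivity))
  · obtain ⟨μ, hμ⟩ := key κ₀
    refine h9 (fun z => κ₀ z + μ * κ z)
      (fun z hz => ((h8 z hz).and (hκ z hz)).mono fun w hw => by simp only [hw.1, hw.2])
      (fun z _ hz => ?_) hμ
    rw [mem_closedBall, not_le] at hz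
    simp only [hR₀ z ((le_max_right _ _).trans_lt hz), mul_zero, add_zero]

theorem no_cycle' {c : ℝ} {u : ℂ → ℝ} {K : Set ℂ} (h : GM c u K) {x : ℂ} {s : ℝ} (hs : 0 < s)
    (hx : x ∈ K) (h1 : (K ∩ sphere x s).encard = 1) :
    ∃ y ∈ K, ¬ Tendsto (fun r => D u K y r / r) (𝓝[>] 0) (𝓝 0) := by
  by_contra hcon
  have hT : ∀ y ∈ K, Tendsto (fun r => D u K y r / r) (𝓝[>] 0) (𝓝 0) :=
    fun y hy => by_contra fun h' => hcon ⟨y, hy, h'⟩
  obtain ⟨δ₀, ε₀, hδ, hε, hL⟩ := LOWREG h.cpos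
  have hL' : ∀ y ∈ K, ∀ b : ℝ, 0 < b → (∃ e h A α φ φ', 0 < h ∧ Graph K y e h A α 1 φ φ') ∨
      ((∀ᶠ t in 𝓝[>] (0 : ℝ), 2.5 * t < len K y t) ∧
        ∃ ρ A α z z', ρ ≤ b ∧ Star 3 K y ρ A α z z') := by
    intro y hy b hb
    obtain ⟨r, h2, h3⟩ := (((hT y hy).eventually (gt_mem_nhds hδ)).and (Ioc_mem_nhdsGT hb)).exists
    rcases hL univ 0 True u K h y r hy h3.1 (subset_univ _) (by rw [zero_mul]; exact hε.le)
      ((div_lt_iff₀ h3.1).1 h2).le with ⟨e, h₀, A, α, φ, φ', h4, -, -, h5⟩ |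
        ⟨h4, ρ, A, α, z, z', h5, h6, -⟩
    · exact Or.inl ⟨e, h₀, A, α, φ, φ', h4, h5⟩
    · exact Or.inr ⟨h4, ρ, A, α, z, z', h5.trans h3.2, h6⟩
  have hC : IsCompact (K ∩ closedBall x s) := (isCompact_closedBall x s).inter_left h.closed
  have hsub : ∀ (y : ℂ) (t : ℝ), t ≤ s - dist y x → K ∩ closedBall y t ⊆ K ∩ closedBall x s :=
    fun y t ht => inter_subset_inter_right _ (closedBall_subset_closedBall' (by linarith))
  have hP : ∀ y ∈ K, dist y x < s → IsPreconnected ((K ∩ closedBall x s) \ {y}) →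
      ¬ ∃ e h A α φ φ', 0 < h ∧ Graph K y e h A α 1 φ φ' := by
    rintro y hy h2 h3 ⟨e, h₀, A, α, φ, φ', h4, h5⟩
    exact cyc_pocket h hy h5 h4 hC inter_subset_left (sub_pos.2 h2) (hsub y _ le_rfl) h3 (hT y hy)
  obtain ⟨p, hp⟩ := encard_eq_one.1 h1
  have hp1 : p ∈ K ∩ sphere x s := by
    rw [hp]
    exact mem_singleton p
  obtain ⟨y, hy, hyp, hn⟩ := noncut hC (pt_conn h.closed h.noPiece h1)
    ⟨hp1.1, sphere_subset_closedBall hp1.2⟩ ⟨hx, mem_closedBall_self hs.le⟩ (by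
      rintro rfl
      have h2 := mem_sphere.1 hp1.2
      rw [dist_self] at h2
      exact hs.ne h2)
  have hys : dist y x < s := (mem_closedBall.1 hy.2).lt_of_ne fun e => hyp (by
    rw [← mem_singleton_iff, ← hp]
    exact ⟨hy.1, e⟩)
  rcases hL' y hy.1 _ (sub_pos.2 hys) with h2 | ⟨-, ρ, A, α, z, z', h2, hS⟩
  · exact hP y hy.1 hys hn h2
  have hr : ρ / 2 ∈ Ioo 0 ρ := ⟨half_pos hS.pos, half_lt_self hS.pos⟩
  have hr' : ρ / 2 ∈ Ioc 0 ρ := ⟨hr.1, hr.2.le⟩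
  have hy' : z 0 (ρ / 2) ∈ K ∩ closedBall y ρ := by
    rw [hS.eq]
    exact Or.inr (mem_iUnion.2 ⟨0, mem_image_of_mem _ hr'⟩)
  rcases hL' _ hy'.1 1 one_pos with h3 | ⟨h3, -⟩
  · refine hP _ hy'.1 ?_ (join_star hS hC.isClosed inter_subset_left (hsub y ρ h2) hn hr) h3
    have h4 := dist_triangle (z 0 (ρ / 2)) y x
    rw [dist_eq_norm (z 0 (ρ / 2)) y, (hS.rad 0).norm _ hr'] at h4
    linarith [hr.2]
  · obtain ⟨t, ⟨h4, h5⟩, ht⟩ := ((h3.and (hS.flat_pt 0 hr)).and self_mem_nhdsWithin).exists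
    have ht0 : 0 < t := ht
    obtain ⟨-, -, h6, -, -, -, -, h7, -⟩ := h.toAM0.upper_real ht0 (subset_univ (closedBall
      (z 0 (ρ / 2)) t))
    rw [h6, ENNReal.ofReal_le_ofReal_iff (by positivity)] at h5
    linarith

end Vale.Agent.P128
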