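import Vale.Agent.P128.RAD.Main

/-! P128 B8/Join (TASK, about 130 lines). Helper lemma names start with join_.
join_out: Q = C \ ball x t. Use isPreconnected_iff_subset_of_disjoint_closed on both sides. Given closed U, V with
Q ⊆ U ∪ V and Q ∩ (U ∩ V) = ∅ put U' = (Q ∩ U) ∪ ⋃ i with a i ∈ U, B i and V' likewise (closed: finite unions,
isClosed_iUnion_of_finite / isClosed_biUnion). Every a i lies in Q. A point of Q in B i is on the sphere, so it is a i.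
Hence C \ {x} ⊆ U' ∪ V' and (C \ {x}) ∩ (U' ∩ V') = ∅, so C \ {x} ⊆ U' or ⊆ V', which gives Q ⊆ U or Q ⊆ V.
join_star: B j = {p} ∪ z j '' Ioc 0 ρ is compact (Star.basic), B i ∩ B j ⊆ {p} (norms equal the parameter, hS.ne),
B j ∩ sphere = {z j ρ}; join_out: Q = C \ ball p ρ is preconnected. With y = z 0 r:
C \ {y} = Q ∪ z 0 '' Ioc r ρ ∪ B 1 ∪ B 2 ∪ ({p} ∪ z 0 '' Ioo 0 r); all pieces are preconnected (z j is continuous on
Ioc 0 ρ; the last one is the union over s in (0, r) of the sets {p} ∪ z 0 '' Ioc 0 s of Star.basic, or lies between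
z 0 '' Ioo 0 r and its closure), chained by the common points z 0 ρ, z 1 ρ, p, p (IsPreconnected.union). -/

namespace Vale.Agent.P128

open MeasureTheory Set Metric Filter Topology
open scoped ENNReal

theorem join_out {ι : Type} [Finite ι] {C : Set ℂ} {B : ι → Set ℂ} {a : ι → ℂ} {x : ℂ} {t : ℝ}
    (ht : 0 < t) (hC : IsClosed C) (hc : IsPreconnected (C \ {x})) (hB : ∀ i, IsClosed (B i))
    (hd : ∀ i j, i ≠ j → B i ∩ B j ⊆ {x}) (he : C ∩ closedBall x t = {x} ∪ ⋃ i, B i)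
    (ha : ∀ i, B i ∩ sphere x t = {a i}) : IsPreconnected (C \ ball x t) := by
  have hQ : IsClosed (C \ ball x t) := hC.sdiff isOpen_ball
  have h1 : ∀ i, B i ⊆ C ∩ closedBall x t := fun i w hw => he ▸ Or.inr (mem_iUnion.2 ⟨i, hw⟩)
  have h2 : ∀ i, a i ∈ C \ ball x t := fun i => by
    have h : a i ∈ B i ∩ sphere x t := (ha i).symm ▸ mem_singleton _
    exact ⟨(h1 i h.1).1, fun h' => (mem_ball.1 h').ne h.2⟩
  obtain ⟨F, hF⟩ : ∃ F : Set ℂ → Set ℂ,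
    ∀ W, F W = (C \ ball x t) ∩ W ∪ ⋃ i, ⋃ _ : a i ∈ W, B i := ⟨_, fun _ => rfl⟩
  have h3 : ∀ W w, w ∈ F W ↔ w ∈ (C \ ball x t) ∩ W ∨ ∃ i, a i ∈ W ∧ w ∈ B i := fun W w => by
    simp only [hF, mem_union, mem_iUnion, exists_prop]
  have h4 : ∀ W, IsClosed W → IsClosed (F W) := fun W hW => hF W ▸ (hQ.inter hW).union
    (isClosed_iUnion_of_finite fun i => isClosed_iUnion_of_finite fun _ => hB i)
  have h5 : ∀ W, ∀ w ∈ C \ ball x t, w ∈ F W → w ∈ W := fun W w hw h => by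
    rcases (h3 W w).1 h with h | ⟨i, hi, h⟩
    · exact h.2
    · have e : w ∈ ({a i} : Set ℂ) := ha i ▸ ⟨h, le_antisymm (h1 i h).2 (not_lt.1 hw.2)⟩
      exact e ▸ hi
  have h6 : ∀ W, C \ {x} ⊆ F W → C \ ball x t ⊆ W := fun W h w hw =>
    h5 W w hw (h ⟨hw.1, fun e => hw.2 (e ▸ mem_ball_self ht)⟩)
  refine (isPreconnected_iff_subset_of_fully_disjoint_closed hQ).2 fun U V hU hV hs hUV =>
    (isPreconnected_iff_subset_of_disjoint_closed.1 hc _ _ (h4 U hU) (h4 V hV) (fun w hw => ?_)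
      (eq_empty_of_forall_notMem fun w hw => ?_)).imp (h6 U) (h6 V)
  · by_cases h : w ∈ ball x t
    · have h7 : w ∈ {x} ∪ ⋃ i, B i := he ▸ ⟨hw.1, ball_subset_closedBall h⟩
      obtain ⟨i, hi⟩ := mem_iUnion.1 (h7.resolve_left hw.2)
      exact (hs (h2 i)).imp (fun k => (h3 _ _).2 (Or.inr ⟨i, k, hi⟩))
        fun k => (h3 _ _).2 (Or.inr ⟨i, k, hi⟩)
    · exact (hs ⟨hw.1, h⟩).imp (fun k => (h3 _ _).2 (Or.inl ⟨⟨hw.1, h⟩, k⟩))
        fun k => (h3 _ _).2 (Or.inl ⟨⟨hw.1, h⟩, k⟩)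
  · by_cases h : w ∈ ball x t
    · obtain ⟨i, hi, k⟩ := ((h3 _ _).1 hw.2.1).resolve_left fun k => k.1.2 h
      obtain ⟨j, hj, k'⟩ := ((h3 _ _).1 hw.2.2).resolve_left fun k => k.1.2 h
      rcases eq_or_ne i j with rfl | e
      · exact Set.disjoint_left.1 hUV hi hj
      · exact hw.1.2 (hd i j e ⟨k, k'⟩)
    · exact Set.disjoint_left.1 hUV (h5 U w ⟨hw.1.1, h⟩ hw.2.1) (h5 V w ⟨hw.1.1, h⟩ hw.2.2)

theorem join_star {K C : Set ℂ} {p : ℂ} {ρ A α : ℝ} {z z' : Fin 3 → ℝ → ℂ}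
    (hS : Star 3 K p ρ A α z z') (hC : IsClosed C) (hCK : C ⊆ K)
    (hl : K ∩ closedBall p ρ ⊆ C) (hn : IsPreconnected (C \ {p})) {r : ℝ} (hr : r ∈ Ioo 0 ρ) :
    IsPreconnected (C \ {z 0 r}) := by
  obtain ⟨-, -, -, hB, -⟩ := hS.basic
  have hρ : ρ ∈ Ioc 0 ρ := ⟨hS.pos, le_rfl⟩
  have hr' := Ioo_subset_Ioc_self hr
  have hd : ∀ j, ∀ s ∈ Ioc 0 ρ, dist (z j s) p = s := fun j s hs => by
    rw [dist_eq_norm, (hS.rad j).norm s hs]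
  have he : C ∩ closedBall p ρ = {p} ∪ ⋃ j, z j '' Ioc 0 ρ :=
    (Subset.antisymm (inter_subset_inter_left _ hCK) (subset_inter hl inter_subset_right)).trans
      hS.eq
  have hne : ∀ i j, ∀ s ∈ Ioc 0 ρ, ∀ t ∈ Ioc 0 ρ, z i s = z j t → i = j ∧ s = t := by
    intro i j s hs t ht e
    obtain rfl : s = t := by rw [← hd i s hs, e, hd j t ht]
    exact ⟨by_contra fun h => hS.ne i j h s hs e, rfl⟩
  have hQ : IsPreconnected (C \ ball p ρ) := by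
    refine join_out (B := fun j => {p} ∪ z j '' Ioc 0 ρ) (a := fun j => z j ρ) hS.pos hC hn
      (fun j => (hB j ρ hρ).1.isClosed) ?_ ?_ fun j => ?_
    · rintro i j h w ⟨h1 | ⟨s, hs, rfl⟩, h2 | ⟨t, ht, e⟩⟩
      exacts [h1, h1, h2, absurd (hne j i t ht s hs e).1.symm h]
    · rw [he, ← union_iUnion, ← union_assoc, union_self]
    · refine eq_singleton_iff_unique_mem.2 ⟨⟨Or.inr ⟨ρ, hρ, rfl⟩, hd j ρ hρ⟩, ?_⟩
      rintro w ⟨rfl | ⟨s, hs, rfl⟩, h⟩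
      · exact absurd ((dist_self w).symm.trans h) hS.pos.ne
      · rw [(hd j s hs).symm.trans h]
  have hz : ∀ j, ∀ s ∈ Ioc 0 ρ, z j s ∈ C := fun j s hs =>
    (he.ge (Or.inr (mem_iUnion.2 ⟨j, s, hs, rfl⟩))).1
  have h1 : ∀ j, ∀ s ∈ Ioc 0 ρ, (j = 0 → s < r) → {p} ∪ z j '' Ioc 0 s ⊆ C \ {z 0 r} := by
    rintro j s hs h w (rfl | ⟨t, ht, rfl⟩)
    · exact ⟨(he.ge (Or.inl rfl)).1, fun e => hr.1.ne (by rw [← hd 0 r hr', ← e, dist_self])⟩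
    · have ht' : t ∈ Ioc 0 ρ := ⟨ht.1, ht.2.trans hs.2⟩
      exact ⟨hz j t ht', fun e => (ht.2.trans_lt (h (hne _ _ _ ht' _ hr' e).1)).ne
        (hne _ _ _ ht' _ hr' e).2⟩
  have h2 : ∀ j, z j ρ ∈ C \ ball p ρ := fun j => ⟨hz j ρ hρ, fun h => (mem_ball.1 h).ne (hd j ρ hρ)⟩
  have h3 : Ioc r ρ ⊆ Ioc 0 ρ := Ioc_subset_Ioc_left hr.1.le
  have hT : IsPreconnected (({p} ∪ z 1 '' Ioc 0 ρ) ∪ C \ ball p ρ ∪ z 0 '' Ioc r ρ) :=
    IsPreconnected.union (z 0 ρ) (Or.inr (h2 0)) ⟨ρ, ⟨hr.2, le_rfl⟩, rfl⟩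
      (IsPreconnected.union (z 1 ρ) (Or.inr ⟨ρ, hρ, rfl⟩) (h2 1) (hB 1 ρ hρ).2 hQ)
      (isPreconnected_Ioc.image _ fun s hs =>
        ((hS.rad 0).deriv s (h3 hs)).continuousAt.continuousWithinAt)
  have hT' : ({p} ∪ z 1 '' Ioc 0 ρ) ∪ C \ ball p ρ ∪ z 0 '' Ioc r ρ ⊆ C \ {z 0 r} := by
    refine union_subset (union_subset (h1 1 ρ hρ fun h => absurd h (by decide)) fun w hw =>
      ⟨hw.1, fun e => hw.2 (mem_ball.2 ?_)⟩) ?_
    · rw [e, hd 0 r hr']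
      exact hr.2
    · rintro _ ⟨s, hs, rfl⟩
      exact ⟨hz 0 s (h3 hs), fun e => hs.1.ne' (hne _ _ _ (h3 hs) _ hr' e).2⟩
  refine isPreconnected_of_forall p fun w hw => ?_
  by_cases h : w ∈ ({p} ∪ z 1 '' Ioc 0 ρ) ∪ C \ ball p ρ ∪ z 0 '' Ioc r ρ
  · exact ⟨_, hT', Or.inl (Or.inl (Or.inl rfl)), h, hT⟩
  have h4 : w ∈ ball p ρ := by_contra fun k => h (Or.inl (Or.inr ⟨hw.1, k⟩))
  obtain ⟨j, s, hs, rfl⟩ := mem_iUnion.1 ((he.le ⟨hw.1, ball_subset_closedBall h4⟩).resolve_left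
    fun k => h (Or.inl (Or.inl (Or.inl k))))
  refine ⟨_, h1 j s hs ?_, Or.inl rfl, Or.inr ⟨s, ⟨hs.1, le_rfl⟩, rfl⟩, (hB j s hs).2⟩
  rintro rfl
  exact lt_of_le_of_ne (not_lt.1 fun k => h (Or.inr ⟨s, ⟨k, hs.2⟩, rfl⟩)) fun e => hw.2 (e ▸ rfl)

end Vale.Agent.P128
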