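import Vale.Agent.P128.B8.Join

/-! P128 B8/Kap (TASK, about 150 lines). Helper lemma names start with kap_.
kap_ext: image of Ioi R ×ˢ univ under (s, θ) ↦ circleMap x s θ (θ = arg (z - x)), or any other proof.
kap_ang: θ₀ = arg e, β = arg ((b - x) * conj e), β' = arg (-(a - x) * conj e) lie in (-π/2, π/2)
(Complex.abs_arg_lt_pi_div_two_iff); θ₁ = θ₀ + β, s₁ = θ₀ + π/2, θ₂ = θ₀ + π + β', s₂ = θ₀ + 3π/2;
use Complex.norm_mul_exp_arg_mul_I.
kap_main: t = r / 2. Graph.disc at radius t: γ s = x + e (s + φ s i), K ∩ closedBall x t = γ '' Icc a b, the circle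
points are γ a, γ b; ((γ s - x) * conj e).re = s so γ is injective and
((γ b - x) * conj e').re ≥ t/2 - t/50 > 0, ((γ a - x) * conj e').re < 0. C₁ = K ∩ closedBall x t (= C ∩ closedBall x t),
C₂ = C \ ball x t is compact and preconnected by join_out with ι = Bool or Fin 2 and the arms γ '' Icc a 0, γ '' Icc 0 b
(γ 0 = x; an arm point on the circle is γ a or γ b). crossing gives κ₀, LC off C₁ ∪ C₂ ⊆ C ⊆ K. C lies in a closed ball
of radius R ≥ 0 around x, κ₀ is constant outside it (LC.const, kap_ext); subtract this constant. -/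

namespace Vale.Agent.P128

open MeasureTheory Set Metric Filter Topology
open scoped ENNReal

theorem kap_ext (x : ℂ) {R : ℝ} (hR : 0 ≤ R) : IsPreconnected {z : ℂ | R < dist z x} := by
  exact outside_preconn_TA3 x R

theorem kap_unit {e : ℂ} (he : ‖e‖ = 1) : e * (starRingEnd ℂ) e = 1 := by
  rw [Complex.mul_conj, Complex.normSq_eq_norm_sq, he]
  simp

theorem kap_exp {e : ℂ} (he : ‖e‖ = 1) : Complex.exp (e.arg * Complex.I) = e := by
  simpa [he] using Complex.norm_mul_exp_arg_mul_I e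

theorem kap_pol {e v : ℂ} {t : ℝ} (he : ‖e‖ = 1) (hv : ‖v‖ = t) :
    (t : ℂ) * Complex.exp (((e.arg + (v * (starRingEnd ℂ) e).arg : ℝ) : ℂ) * Complex.I) = v := by
  have h1 := Complex.norm_mul_exp_arg_mul_I (v * (starRingEnd ℂ) e)
  rw [norm_mul, Complex.norm_conj, he, mul_one, hv] at h1
  rw [Complex.ofReal_add, add_mul, Complex.exp_add, kap_exp he]
  linear_combination e * h1 + v * kap_unit he

theorem kap_pi (x : ℂ) (t θ : ℝ) :
    circleMap x t (θ + Real.pi) = x - t * Complex.exp (θ * Complex.I) := by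
  rw [circleMap, Complex.ofReal_add, add_mul, Complex.exp_add, Complex.exp_pi_mul_I]
  ring

theorem kap_half {e : ℂ} (he : ‖e‖ = 1) :
    Complex.exp (((e.arg + Real.pi / 2 : ℝ) : ℂ) * Complex.I) = Complex.I * e := by
  rw [Complex.ofReal_add, add_mul, Complex.exp_add, kap_exp he, Complex.ofReal_div,
    Complex.ofReal_ofNat, Complex.exp_pi_div_two_mul_I, mul_comm]

theorem kap_ang {x e a b : ℂ} {t : ℝ} (ht : 0 < t) (he : ‖e‖ = 1) (ha : a ∈ sphere x t)
    (hb : b ∈ sphere x t) (ha0 : ((a - x) * (starRingEnd ℂ) e).re < 0)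
    (hb0 : 0 < ((b - x) * (starRingEnd ℂ) e).re) :
    ∃ θ₁ s₁ θ₂ s₂ : ℝ, θ₁ < s₁ ∧ s₁ < θ₂ ∧ θ₂ < s₂ ∧ s₂ < θ₁ + 2 * Real.pi ∧
      circleMap x t θ₁ = b ∧ circleMap x t θ₂ = a ∧ circleMap x t s₁ = upP x e (2 * t) ∧
      circleMap x t s₂ = dnP x e (2 * t) := by
  have h1 := abs_lt.1 (Complex.abs_arg_lt_pi_div_two_iff.2 (Or.inl hb0))
  have h2 := abs_lt.1 (Complex.abs_arg_lt_pi_div_two_iff.2
    (Or.inl (show 0 < (-(a - x) * (starRingEnd ℂ) e).re by
      rw [neg_mul, Complex.neg_re]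
      linarith)))
  have e1 : 2 * t / 2 = t := by ring
  refine ⟨e.arg + ((b - x) * (starRingEnd ℂ) e).arg, e.arg + Real.pi / 2,
    e.arg + (-(a - x) * (starRingEnd ℂ) e).arg + Real.pi, e.arg + Real.pi / 2 + Real.pi,
    by linarith [h1.2], by linarith [h2.1], by linarith [h2.2], by linarith [h1.1], ?_, ?_, ?_, ?_⟩
  · rw [circleMap, kap_pol he (mem_sphere_iff_norm.1 hb), add_sub_cancel]
  · rw [kap_pi, kap_pol he ((norm_neg _).trans (mem_sphere_iff_norm.1 ha))]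
    ring
  · rw [circleMap, kap_half he, upP, e1]
  · rw [kap_pi, kap_half he, dnP, e1]

theorem kap_re {x e e' : ℂ} {φ : ℝ → ℝ} {s t : ℝ} (he : ‖e‖ = 1) (hee : ‖e' - e‖ ≤ 1 / 50)
    (hs : Rd.crv x e φ s ∈ sphere x t) :
    |((Rd.crv x e φ s - x) * (starRingEnd ℂ) e').re - s| ≤ t / 50 := by
  have h1 : (Rd.crv x e φ s - x) * (starRingEnd ℂ) e' = (s + φ s * Complex.I) +
      (Rd.crv x e φ s - x) * (starRingEnd ℂ) (e' - e) := by
    rw [map_sub, Rd.crv]
    linear_combination (s + φ s * Complex.I) * kap_unit he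
  have h2 : ((s : ℂ) + φ s * Complex.I).re = s := by simp
  have h3 := mem_sphere_iff_norm.1 hs
  rw [h1, Complex.add_re, h2, add_sub_cancel_left]
  refine (Complex.abs_re_le_norm _).trans ?_
  rw [norm_mul, Complex.norm_conj, h3, div_eq_mul_one_div]
  exact mul_le_mul_of_nonneg_left hee (h3 ▸ norm_nonneg _)

theorem kap_out {C : Set ℂ} {x : ℂ} {γ : ℝ → ℂ} {a b t : ℝ} (ht : 0 < t) (hC : IsClosed C)
    (hn : IsPreconnected (C \ {x})) (ha : a < 0) (hb : 0 < b) (hc : ContinuousOn γ (Icc a b))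
    (hi : InjOn γ (Icc a b)) (h0 : γ 0 = x) (e1 : C ∩ closedBall x t = γ '' Icc a b)
    (e2 : C ∩ sphere x t = {γ a, γ b}) : IsPreconnected (C \ ball x t) := by
  have s1 : Icc a 0 ⊆ Icc a b := Icc_subset_Icc_right hb.le
  have s2 : Icc 0 b ⊆ Icc a b := Icc_subset_Icc_left ha.le
  have ma : a ∈ Icc a b := s1 (left_mem_Icc.2 ha.le)
  have mb : b ∈ Icc a b := s2 (right_mem_Icc.2 hb.le)
  have hd : γ '' Icc a 0 ∩ γ '' Icc 0 b ⊆ {x} := by
    rintro _ ⟨⟨s, hs, rfl⟩, s', hs', h⟩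
    have h1 := hi (s2 hs') (s1 hs) h
    rw [le_antisymm hs.2 (h1 ▸ hs'.1), h0]
    rfl
  have hs : ∀ s ∈ Icc a b, γ s ∈ sphere x t → s = a ∨ s = b := fun s hs h =>
    (e2.subset ⟨(e1.superset (mem_image_of_mem _ hs)).1, h⟩).imp (hi hs ma) (hi hs mb)
  refine join_out (B := fun i : Bool => bif i then γ '' Icc 0 b else γ '' Icc a 0)
    (a := fun i => bif i then γ b else γ a) ht hC hn (fun i => ?_) (fun i j hij => ?_) ?_ fun i => ?_
  · cases i
    · exact (isCompact_Icc.image_of_continuousOn (hc.mono s1)).isClosed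
    · exact (isCompact_Icc.image_of_continuousOn (hc.mono s2)).isClosed
  · cases i <;> cases j
    · exact absurd rfl hij
    · exact hd
    · exact (inter_comm _ _).subset.trans hd
    · exact absurd rfl hij
  · rw [e1]
    refine Subset.antisymm ?_ (union_subset ?_ (iUnion_subset fun i => ?_))
    · rintro _ ⟨s, hs, rfl⟩
      rcases le_total s 0 with h | h
      · exact Or.inr (mem_iUnion.2 ⟨false, s, ⟨hs.1, h⟩, rfl⟩)
      · exact Or.inr (mem_iUnion.2 ⟨true, s, ⟨h, hs.2⟩, rfl⟩)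
    · exact singleton_subset_iff.2 ⟨0, ⟨ha.le, hb.le⟩, h0⟩
    · cases i
      · exact image_mono s1
      · exact image_mono s2
  · cases i
    · refine Subset.antisymm ?_ (singleton_subset_iff.2
        ⟨⟨a, left_mem_Icc.2 ha.le, rfl⟩, (e2.superset (Or.inl rfl)).2⟩)
      rintro _ ⟨⟨s, h1, rfl⟩, h2⟩
      exact congrArg γ ((hs s (s1 h1) h2).resolve_right (h1.2.trans_lt hb).ne)
    · refine Subset.antisymm ?_ (singleton_subset_iff.2
        ⟨⟨b, right_mem_Icc.2 hb.le, rfl⟩, (e2.superset (Or.inr rfl)).2⟩)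
      rintro _ ⟨⟨s, h1, rfl⟩, h2⟩
      exact congrArg γ ((hs s (s2 h1) h2).resolve_left (ha.trans_le h1.1).ne')

theorem kap_main {K C : Set ℂ} {x e e' : ℂ} {h A α ρ r : ℝ} {φ φ' : ℝ → ℝ} (hK : IsClosed K)
    (hG : Graph K x e h A α ρ φ φ') (hC : IsCompact C) (hCK : C ⊆ K) (hr : 0 < r) (hrh : r ≤ h)
    (hl : K ∩ closedBall x r ⊆ C) (hn : IsPreconnected (C \ {x})) (he : ‖e'‖ = 1)
    (hee : ‖e' - e‖ ≤ 1 / 50) :
    ∃ κ : ℂ → ℝ, LC Kᶜ κ ∧ κ (upP x e' r) ≠ κ (dnP x e' r) ∧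
      ∃ R : ℝ, ∀ z, R < dist z x → κ z = 0 := by
  have ht := half_pos hr
  obtain ⟨a, b, a1, a2, b1, b2, e1, e2, -, -, hp, -⟩ := hG.disc ht (by linarith)
  change _ = Rd.crv x e φ '' Icc a b at e1
  change _ = {Rd.crv x e φ a, Rd.crv x e φ b} at e2
  have hs : Icc a b ⊆ Icc (-h) h := Icc_subset_Icc (by linarith) (by linarith)
  have hl' : K ∩ closedBall x (r / 2) ⊆ C :=
    (inter_subset_inter_right _ (closedBall_subset_closedBall (by linarith))).trans hl
  have ma := e2.superset (Or.inl rfl)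
  have mb := e2.superset (Or.inr rfl)
  have h2 : IsPreconnected (C \ ball x (r / 2)) := by
    refine kap_out (γ := Rd.crv x e φ) ht hC.isClosed hn (by linarith) (by linarith)
      (fun s h' => (Rd.crv_deriv hG (hs h')).continuousAt.continuousWithinAt) (fun s h1 s' h2 h3 => ?_)
      (Rd.crv_zero hG) (Eq.trans ?_ e1) (Eq.trans ?_ e2)
    · have h4 := (Rd.crv_sub hG (hs h1) (hs h2)).1
      rw [h3, sub_self, norm_zero, abs_nonpos_iff, sub_eq_zero] at h4
      exact h4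
    · exact Subset.antisymm (inter_subset_inter_left _ hCK) fun z hz => ⟨hl' hz, hz.2⟩
    · exact Subset.antisymm (inter_subset_inter_left _ hCK) fun z hz =>
        ⟨hl' ⟨hz.1, sphere_subset_closedBall hz.2⟩, hz.2⟩
  obtain ⟨θ₁, s₁, θ₂, s₂, c1, c2, c3, c4, d1, d2, d3, d4⟩ := kap_ang ht he ma.2 mb.2
    (by linarith [(abs_le.1 (kap_re hG.unit hee ma.2)).2])
    (by linarith [(abs_le.1 (kap_re hG.unit hee mb.2)).1])
  have hm : ∀ z ∈ K ∩ sphere x (r / 2), z ∈ (K ∩ closedBall x (r / 2)) ∩ (C \ ball x (r / 2)) :=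
    fun z hz => ⟨⟨hz.1, sphere_subset_closedBall hz.2⟩,
      hl' ⟨hz.1, sphere_subset_closedBall hz.2⟩, fun h' => (mem_ball.1 h').ne hz.2⟩
  have hU : (K ∩ closedBall x (r / 2)) ∪ (C \ ball x (r / 2)) ⊆ C := union_subset hl' sdiff_subset
  obtain ⟨κ, k1, k2⟩ := crossing ht c1 c2 c3 c4 ((isCompact_closedBall x (r / 2)).inter_left hK) hp
    (hC.diff isOpen_ball) h2 inter_subset_right disjoint_sdiff_left (d1 ▸ hm _ mb) (d2 ▸ hm _ ma)
    (by
      rw [d1, d2, pair_comm, ← e2]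
      exact inter_subset_inter_left _ (hU.trans hCK))
  rw [d3, d4, mul_div_cancel₀ _ two_ne_zero] at k2
  obtain ⟨R, hR⟩ := hC.isBounded.subset_closedBall x
  refine ⟨fun z => κ z - κ (x + ((|R| + 1 : ℝ) : ℂ)), fun z hz => ?_, fun h' => k2 (sub_left_injective h'),
    R, fun z hz => sub_eq_zero.2 (k1.const (outside_preconn_TA3 x R) (fun w hw h' => ?_) hz ?_)⟩
  · filter_upwards [k1 z fun h' => hz (hCK (hU h'))] with w hw
    rw [hw]
  · exact not_le.2 (show R < dist w x from hw) (mem_closedBall.1 (hR (hU h')))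
  · show R < dist _ x
    rw [dist_self_add_left, Complex.norm_real, Real.norm_eq_abs]
    exact ((le_abs_self R).trans_lt (lt_add_one _)).trans_le (le_abs_self _)

end Vale.Agent.P128
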