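import Vale.Agent.P128.B8.Ray

/-! P128 B8/Lim (TASK, about 90 lines). Helper lemma names start with lim_.
lim_ZF: the sequence (rescU u x (ρ n), rescS K x (ρ n)) is a Seq with Ω n = univ, ε n = 0, wk n = True (fields: GM.rescale,
tendsto_const_nhds, subset_univ). `comp` gives φ, w, L with GM c w L and Conv. 0 ∈ L by Conv0.mem_of_tendsto (z n = 0,
x + ρ * 0 = x ∈ K). ZF by ZF_limit with v n = rescU v x (ρ (φ n)) (Conj.rescale; |v (x + ρ z)| / √ρ ≤ η from h0 along φ).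
The last two items are Conv.en and Conv.usc at y = 0 rewritten with resc_real (x + ρ * 0 = x).
lim_one: hz gives v with v = 0 on K, so lim_ZF applies (h0 trivial). D w L 0 s = d * s by uniqueness of limits
(hlim s along φ, times s). V4 gives IsRay w L 0 e d, RAY1 gives d = 1, L = cone 1 0 e so lenc L 0 1 ≤ 1 (ray_lenc);
the last item of lim_ZF with s = 1 holds eventually along φ, hence frequently in n
(hφ.tendsto_atTop.frequently applied to Eventually.frequently). -/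

namespace Vale.Agent.P128

open MeasureTheory Set Metric Filter Topology
open scoped ENNReal

theorem lim_ZF {c : ℝ} {u v : ℂ → ℝ} {K : Set ℂ} (h : GM c u K) (hv : Conj u K v) {x : ℂ}
    (hx : x ∈ K) {ρ : ℕ → ℝ} (hρ : ∀ n, 0 < ρ n)
    (h0 : ∀ η : ℝ, 0 < η → ∀ᶠ n in atTop, ∀ z ∈ K, |v z| ≤ η * √(ρ n)) :
    ∃ φ : ℕ → ℕ, StrictMono φ ∧ ∃ (w : ℂ → ℝ) (L : Set ℂ), GM c w L ∧ (0 : ℂ) ∈ L ∧ ZF w L ∧
      (∀ s, 0 < s → Tendsto (fun n => D u K x (ρ (φ n) * s) / ρ (φ n)) atTop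
        (𝓝 (D w L 0 s))) ∧
      ∀ s η, 0 < s → 0 < η → ∀ᶠ n in atTop,
        lenc K x (ρ (φ n) * s) ≤ ρ (φ n) * (lenc L 0 s + η) := by
  have hs : Seq c (fun _ => univ) (fun _ => 0) (fun _ => True) (fun n => rescU u x (ρ n))
      (fun n => rescS K x (ρ n)) :=
    ⟨fun n => h.rescale x (hρ n), tendsto_const_nhds,
      fun _ => Eventually.of_forall fun _ => subset_univ _⟩
  obtain ⟨φ, hφ, w, L, hw, hc⟩ := comp hs
  have hL : (0 : ℂ) ∈ L := hc.toConv0.mem_of_tendsto (z := fun _ => 0)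
    (Frequently.of_forall fun n => by simpa [rescS] using hx) tendsto_const_nhds
  refine ⟨φ, hφ, w, L, hw, hL, ?_, fun s hs => ?_, fun s η hs hη => ?_⟩
  · refine ZF_limit (v := fun n => rescU v x (ρ (φ n))) (fun n => h.rescale x (hρ (φ n)))
      hc.toConv0 (fun n => hv.rescale x (hρ (φ n))) (fun η hη => ?_) ⟨0, hL⟩
    filter_upwards [hφ.tendsto_atTop.eventually (h0 η hη)] with n hn z hz
    have hq : 0 < √(ρ (φ n)) := Real.sqrt_pos.2 (hρ _)
    rw [rescU, abs_div, abs_of_pos hq, div_le_iff₀ hq]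
    exact hn _ hz
  · refine (hc.en 0 s hs).congr fun n => ?_
    simpa using (resc_real u K x (hρ (φ n)) 0 s).1
  · filter_upwards [hc.usc 0 s η hs hη] with n hn
    have e := (resc_real u K x (hρ (φ n)) 0 s).2.2.1
    rw [mul_zero, add_zero] at e
    rw [Function.comp_apply, e, div_le_iff₀ (hρ _)] at hn
    linarith

theorem lim_one {c : ℝ} {u : ℂ → ℝ} {K : Set ℂ} (h : GM c u K) (hz : ZF u K) {x : ℂ}
    (hx : x ∈ K) {ρ : ℕ → ℝ} (hρ : ∀ n, 0 < ρ n) {d : ℝ} (hd : 0 < d)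
    (hlim : ∀ s, 0 < s → Tendsto (fun n => D u K x (ρ n * s) / (ρ n * s)) atTop (𝓝 d)) :
    d = 1 ∧ ∀ η : ℝ, 0 < η → ∃ᶠ n in atTop, lenc K x (ρ n) ≤ (1 + η) * ρ n := by
  obtain ⟨v, hv, hv0⟩ := hz
  obtain ⟨φ, hφ, w, L, hw, hL, hZ, h1, h2⟩ := lim_ZF h hv hx hρ fun η hη =>
    Eventually.of_forall fun n z hz => by
      rw [hv0 z hz, abs_zero]
      positivity
  have hD : ∀ s, 0 < s → D w L 0 s = d * s := fun s hs => by
    refine tendsto_nhds_unique (h1 s hs)
      ((((hlim s hs).comp hφ.tendsto_atTop).mul_const s).congr fun n => ?_)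
    have := (hρ (φ n)).ne'
    simp only [Function.comp_apply]
    field_simp
  obtain ⟨e, he⟩ := V4 hw hZ hL hd hD
  refine ⟨RAY1 hw he, fun η hη => hφ.tendsto_atTop.frequently (Eventually.frequently ?_)⟩
  filter_upwards [h2 1 η one_pos hη] with n hn
  have h3 := ray_lenc he.unit
  rw [← he.eq] at h3
  rw [mul_one] at hn
  have h4 := mul_le_mul_of_nonneg_left h3 (hρ (φ n)).le
  linarith

end Vale.Agent.P128
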