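import Vale.Agent.P128.B8.Blow
import Vale.Agent.P128.B8.Cyc

/-! P128 block B8: classification of global minimizers. RAY1 is in B8/Ray. -/

namespace Vale.Agent.P128

open MeasureTheory Set Metric Filter Topology
open scoped ENNReal

/-- A global minimizer with nonzero energy has zero flux and energy ratio tending to one. -/
theorem blowdown {c : ℝ} {u : ℂ → ℝ} {K : Set ℂ} (h : GM c u K) (hK : (0 : ℂ) ∈ K)
    (hD : ¬ ∀ z ∉ K, fderiv ℝ u z = 0) :
    ZF u K ∧ (∀ x, Tendsto (fun s => D u K x s / s) atTop (𝓝 1)) ∧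
      ∀ T : ℝ, ∃ s, T < s ∧ (K ∩ sphere 0 s).encard = 1 :=
  blowdown' h hK hD

/-- If a circle around a point of `K` meets `K` once, some point of `K` has high energy. -/
theorem no_cycle {c : ℝ} {u : ℂ → ℝ} {K : Set ℂ} (h : GM c u K) {s : ℝ} (hs : 0 < s)
    (hK : (0 : ℂ) ∈ K) (h1 : (K ∩ sphere 0 s).encard = 1) :
    ∃ x ∈ K, ¬ Tendsto (fun r => D u K x r / r) (𝓝[>] 0) (𝓝 0) :=
  no_cycle' h hs hK h1

theorem CLASS {c : ℝ} {u : ℂ → ℝ} {K : Set ℂ} (h : GM c u K) (hne : K.Nonempty) :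
    IsNet u K ∨ ∃ z e, IsRay u K z e 1 := by
  by_cases hD : ∀ z ∉ K, fderiv ℝ u z = 0
  · exact Or.inl (network h hD hne)
  · obtain ⟨x, hx⟩ := hne
    obtain ⟨hz, ht, hs⟩ := blowdown' h hx hD
    obtain ⟨s, hs0, hs1⟩ := hs 0
    obtain ⟨y, hy, hn⟩ := no_cycle' h hs0 hx hs1
    exact Or.inr ⟨y, one_ray h hz hy hn (ht y)⟩

theorem class_tip {c : ℝ} {u : ℂ → ℝ} {K : Set ℂ} (h : GM c u K) {x : ℂ} (hx : x ∈ K) {δ : ℝ}
    (hδ : 0 < δ) (hD : ∀ t, 0 < t → δ * t ≤ D u K x t) : ∃ e, IsRay u K x e 1 := by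
  rcases CLASS h ⟨x, hx⟩ with ⟨h0, -⟩ | ⟨z, e, hR⟩
  · have h1 : Dir u (ball x 1 \ K) = 0 := by
      refine le_antisymm ?_ zero_le
      calc Dir u (ball x 1 \ K) = ∫⁻ _ in ball x 1 \ K, (0 : ℝ≥0∞) :=
            setLIntegral_congr_fun (measurableSet_ball.diff h.closed.measurableSet)
              fun z hz => by
                simp only [h0 z hz.2, ← ofReal_norm, norm_zero]
                simp
        _ ≤ 0 := by simp
    have h2 := hD 1 one_pos
    rw [D, h1] at h2
    simp only [ENNReal.toReal_zero] at h2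
    linarith
  · by_cases hxz : x = z
    · exact ⟨e, hxz ▸ hR⟩
    · exfalso
      have ha : 0 < dist x z := dist_pos.2 hxz
      have ht : 0 < min (dist x z / 2) (δ * dist x z / 2) := lt_min (by positivity) (by positivity)
      have h1 := min_le_left (dist x z / 2) (δ * dist x z / 2)
      have h2 := min_le_right (dist x z / 2) (δ * dist x z / 2)
      have h3 := (hD _ ht).trans (hR.low ht (by linarith))
      rw [le_div_iff₀ ha] at h3
      nlinarith

end Vale.Agent.P128
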