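import Vale.Agent.P128.B8.Lim

/-! P128 B8/One (TASK, about 90 lines). Helper lemma names start with one_.
Let f s = D u K x s / s, monotone on Ioi 0 (V3), 0 ≤ f ≤ 8 (AM0.upper_real with Ω = univ).
one_top: g s = f (max s 1) is monotone and bounded on ℝ, so it tends to d = iSup g at atTop (tendsto_atTop_ciSup), and
f = g eventually; d ≥ f (max t₀ 1) ≥ f t₀ > 0. lim_one with ρ n = n + 1 (ρ n * s tends to atTop) gives d = 1 and the
length item (choose n with T < n + 1 by Frequently.and_eventually).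
one_bot: f tends to d₀ = sInf (f '' Ioi 0) along 𝓝[>] 0 (MonotoneOn.tendsto_nhdsWithin_Ioo_right or
Monotone.tendsto_nhdsGT applied to s ↦ f (exp ..), or a direct argument with csInf); d₀ ≥ 0 and d₀ ≠ 0 by hn.
lim_one with ρ n = 1 / (n + 1) (ρ n * s tends to 𝓝[>] 0) gives d₀ = 1, and d₀ ≤ f s.
one_ray: f ≤ 1 from monotonicity and the limit at atTop (ge_of_tendsto), f ≥ 1 from one_bot, so D = 1 * s; V4. -/

namespace Vale.Agent.P128

open MeasureTheory Set Metric Filter Topology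
open scoped ENNReal

theorem one_bd {c : ℝ} {u : ℂ → ℝ} {K : Set ℂ} (h : GM c u K) (x : ℂ) {s : ℝ} (hs : 0 < s) :
    0 ≤ D u K x s / s ∧ D u K x s / s ≤ 8 := by
  obtain ⟨-, -, -, -, -, h0, h1, h2, h3⟩ := h.toAM0.upper_real (y := x) hs (subset_univ _)
  refine ⟨div_nonneg h0 hs.le, ?_⟩
  rw [div_le_iff₀ hs]
  linarith

theorem one_top {c : ℝ} {u : ℂ → ℝ} {K : Set ℂ} (h : GM c u K) (hz : ZF u K) {x : ℂ}
    (hx : x ∈ K) {t₀ : ℝ} (ht : 0 < t₀) (hD : 0 < D u K x t₀) :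
    Tendsto (fun s => D u K x s / s) atTop (𝓝 1) ∧
      ∀ η T : ℝ, 0 < η → ∃ r, T < r ∧ 0 < r ∧ lenc K x r ≤ (1 + η) * r := by
  have hm := V3 h hz hx
  have hp : ∀ s : ℝ, max s 1 ∈ Ioi (0 : ℝ) := fun s => lt_of_lt_of_le one_pos (le_max_right s 1)
  have hg : Monotone fun s : ℝ => D u K x (max s 1) / max s 1 := fun a b hab =>
    hm (hp a) (hp b) (max_le_max hab le_rfl)
  have hb : BddAbove (range fun s : ℝ => D u K x (max s 1) / max s 1) :=
    ⟨8, by rintro _ ⟨s, rfl⟩; exact (one_bd h x (hp s)).2⟩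
  have hl := tendsto_atTop_ciSup hg hb
  set d := ⨆ s : ℝ, D u K x (max s 1) / max s 1 with hd
  have hd0 : 0 < d :=
    lt_of_lt_of_le (div_pos hD ht) ((hm ht (hp t₀) (le_max_left _ _)).trans (le_ciSup hb t₀))
  have hf : Tendsto (fun s => D u K x s / s) atTop (𝓝 d) := by
    refine hl.congr' ?_
    filter_upwards [eventually_ge_atTop (1 : ℝ)] with s hs
    rw [max_eq_left hs]
  have hρ : Tendsto (fun n : ℕ => (n : ℝ) + 1) atTop atTop :=
    tendsto_atTop_add_const_right _ _ tendsto_natCast_atTop_atTop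
  obtain ⟨h1, h2⟩ := lim_one h hz hx (ρ := fun n : ℕ => (n : ℝ) + 1) (fun n => by positivity) hd0
    fun s hs => hf.comp (hρ.atTop_mul_const hs)
  refine ⟨h1 ▸ hf, fun η T hη => ?_⟩
  obtain ⟨n, hn1, hn2⟩ := ((h2 η hη).and_eventually (hρ.eventually_gt_atTop T)).exists
  exact ⟨_, hn2, by positivity, hn1⟩

theorem one_bot {c : ℝ} {u : ℂ → ℝ} {K : Set ℂ} (h : GM c u K) (hz : ZF u K) {x : ℂ}
    (hx : x ∈ K) (hn : ¬ Tendsto (fun r => D u K x r / r) (𝓝[>] 0) (𝓝 0)) :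
    ∀ s, 0 < s → s ≤ D u K x s := by
  intro s hs
  have hm := V3 h hz hx
  have hb : BddBelow ((fun r => D u K x r / r) '' Ioo 0 s) :=
    ⟨0, by rintro _ ⟨r, hr, rfl⟩; exact (one_bd h x hr.1).1⟩
  have hne : (Ioo (0 : ℝ) s).Nonempty := nonempty_Ioo.2 hs
  have hf := MonotoneOn.tendsto_nhdsWithin_Ioo_right hne (hm.mono Ioo_subset_Ioi_self) hb
  set d := sInf ((fun r => D u K x r / r) '' Ioo 0 s) with hd
  have hd0 : 0 ≤ d := le_csInf (hne.image _) (by rintro _ ⟨r, hr, rfl⟩; exact (one_bd h x hr.1).1)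
  have hd1 : 0 < d := lt_of_le_of_ne hd0 fun e => hn (by rw [← e] at hf; exact hf)
  have hρ : ∀ t : ℝ, 0 < t → Tendsto (fun n : ℕ => 1 / ((n : ℝ) + 1) * t) atTop (𝓝[>] 0) := by
    intro t ht
    refine tendsto_nhdsWithin_iff.2 ⟨?_, Eventually.of_forall fun n => ?_⟩
    · simpa using tendsto_one_div_add_atTop_nhds_zero_nat.mul_const t
    · show 0 < 1 / ((n : ℝ) + 1) * t
      positivity
  obtain ⟨h1, -⟩ := lim_one h hz hx (ρ := fun n : ℕ => 1 / ((n : ℝ) + 1)) (fun n => by positivity)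
    hd1 fun t ht => hf.comp (hρ t ht)
  have h2 : d ≤ D u K x s / s := by
    refine le_of_tendsto hf ?_
    filter_upwards [Ioo_mem_nhdsGT hs] with r hr
    exact hm hr.1 hs hr.2.le
  rw [h1, le_div_iff₀ hs, one_mul] at h2
  exact h2

theorem one_ray {c : ℝ} {u : ℂ → ℝ} {K : Set ℂ} (h : GM c u K) (hz : ZF u K) {x : ℂ}
    (hx : x ∈ K) (hn : ¬ Tendsto (fun r => D u K x r / r) (𝓝[>] 0) (𝓝 0))
    (ht : Tendsto (fun s => D u K x s / s) atTop (𝓝 1)) : ∃ e, IsRay u K x e 1 := by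
  have hm := V3 h hz hx
  refine V4 h hz hx one_pos fun s hs => le_antisymm ?_ ?_
  · have h2 : D u K x s / s ≤ 1 := by
      refine ge_of_tendsto ht ?_
      filter_upwards [eventually_ge_atTop s] with r hr
      exact hm hs (hs.trans_le hr) hr
    rwa [div_le_iff₀ hs] at h2
  · rw [one_mul]
    exact one_bot h hz hx hn s hs

end Vale.Agent.P128
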