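import Vale.Agent.P128.B9.Main
import Vale.Agent.P128.B6.Main

/-! P128 B8/Ray (TASK, about 50 lines). Helper lemma names start with ray_.
RAY1: build `Star 1 K z 1 0 1 (fun _ r => z + r * e) (fun _ _ => e)` (K = cone 1 z e, rt 1 = exp (2 pi i) = 1 so
cone 1 z e = {z + t e, 0 ≤ t}; the Hoelder field is ‖e - e‖ ≤ 0 * ..), apply TIPCORE with Ω = univ: D / r tends to 1
along 𝓝[>] 0, while D u K z r / r = d for r > 0 (hR.en); tendsto_nhds_unique.
ray_cone is the description of cone 1; ray_lenc: cone 1 0 e ∩ closedBall 0 1 is contained in segment 0 e (len_segment). -/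

namespace Vale.Agent.P128

open MeasureTheory Set Metric Filter Topology
open scoped ENNReal

theorem ray_cone (z e : ℂ) : cone 1 z e = {w | ∃ t : ℝ, 0 ≤ t ∧ w = z + t * e} := by
  have h : rt 1 = 1 := by simp [rt, Complex.exp_two_pi_mul_I]
  simp [cone, h]

theorem ray_lenc {e : ℂ} (he : ‖e‖ = 1) : lenc (cone 1 0 e) 0 1 ≤ 1 := by
  have h : cone 1 0 e ∩ closedBall 0 1 ⊆ segment ℝ 0 e := by
    rw [ray_cone]
    rintro _ ⟨⟨t, ht, rfl⟩, hb⟩
    rw [mem_closedBall_zero_iff, zero_add, norm_mul, he, mul_one, Complex.norm_real,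
      Real.norm_of_nonneg ht] at hb
    exact ⟨1 - t, t, sub_nonneg.2 hb, ht, by ring, by simp⟩
  refine ENNReal.toReal_le_of_le_ofReal zero_le_one ((measure_mono h).trans_eq ?_)
  rw [hausdorffMeasure_segment, edist_dist, dist_comm, dist_zero_right, he]

theorem RAY1 {c : ℝ} {u : ℂ → ℝ} {K : Set ℂ} (h : GM c u K) {z e : ℂ} {d : ℝ}
    (hR : IsRay u K z e d) : d = 1 := by
  have hn : ∀ r : ℝ, 0 ≤ r → ‖z + r * e - z‖ = r := fun r hr => by
    rw [add_sub_cancel_left, norm_mul, hR.unit, mul_one, Complex.norm_real, Real.norm_of_nonneg hr]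
  have hS : Star 1 K z 1 0 1 (fun _ r => z + r * e) (fun _ _ => e) := by
    refine ⟨one_pos, one_pos, fun _ => ⟨fun r hr => hn r hr.1.le, fun r _ => ?_,
      fun _ _ => hR.unit.le.trans one_le_two, fun _ _ _ _ => by simp⟩,
      fun i j hij => absurd (Subsingleton.elim i j) hij, ?_⟩
    · simpa using ((Complex.ofRealCLM.hasDerivAt (x := r)).mul_const e).const_add z
    · rw [hR.eq, ray_cone]
      ext w
      simp only [mem_inter_iff, mem_ofPred_eq, mem_union, mem_singleton_iff, mem_iUnion, mem_image,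
        mem_closedBall, dist_eq_norm]
      constructor
      · rintro ⟨⟨t, ht, rfl⟩, hb⟩
        rw [hn t ht] at hb
        rcases ht.eq_or_lt with rfl | ht'
        · exact Or.inl (by simp)
        · exact Or.inr ⟨0, t, ⟨ht', hb⟩, rfl⟩
      · rintro (rfl | ⟨-, t, ht, rfl⟩)
        · exact ⟨⟨0, le_rfl, by simp⟩, by simp⟩
        · exact ⟨⟨t, ht.1.le, rfl⟩, (hn t ht.1.le).trans_le ht.2⟩
  refine tendsto_nhds_unique (tendsto_const_nhds.congr' ?_) (TIPCORE h hS (subset_univ _)).2
  filter_upwards [self_mem_nhdsWithin] with r hr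
  rw [hR.en r hr, mul_div_cancel_right₀ _ (ne_of_gt hr)]

end Vale.Agent.P128
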